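import Vale.Agent.P228.H615.Main

/-!
# Compact transformation groups of manifolds, from the structure of compact groups

`CptStrong`: in a compact Hausdorff group a closed subgroup which contains the images of all
continuous homomorphisms `ℤ_p → K` is everything.  From it: small compact subgroups act trivially
(with no faithfulness assumption), the quantitative local form for all compact groups, and locally
compact groups which act faithfully have no small subgroups.
-/

set_option autoImplicit false

namespace Vale.Agent.P228.H615

open Filter Topology Set Metric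

/-- A closed subgroup containing all `p`-adic one-parameter subgroups is everything. -/
def CptStrong (K : Type*) [Group K] [TopologicalSpace K] : Prop :=
  ∀ S : Subgroup K, IsClosed (S : Set K) →
    (∀ (p : ℕ) [Fact p.Prime] (φ : Multiplicative ℤ_[p] →* K), Continuous φ →
      ∀ u, φ u ∈ S) → ∀ g, g ∈ S

section Global

variable {M : Type*} [TopologicalSpace M] [T2Space M] [PreconnectedSpace M]

/-- Small compact subgroups act trivially. -/
theorem small_compact (n : ℕ) [ChartedSpace (EuclideanSpace ℝ (Fin n)) M] (G : Type*) [Group G]
    [TopologicalSpace G] [MulAction G M] [ContinuousSMul G M]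
    (hC : ∀ K : Subgroup G, IsCompact (K : Set G) → CptStrong K) :
    ∃ V ∈ 𝓝 (1 : G), ∀ K : Subgroup G, IsCompact (K : Set G) →
      (K : Set G) ⊆ V → ∀ g ∈ K, ∀ m : M, g • m = m := by
  obtain ⟨V, hV, H⟩ := exists_nhds_trivial n (M := M) (G := G)
  refine ⟨V, hV, fun K hKc hKV => ?_⟩
  let S : Subgroup K :=
    { carrier := {k | ∀ m : M, (k : G) • m = m}
      one_mem' := fun m => one_smul G m
      mul_mem' := fun {a b} ha hb m => by
        show ((a : G) * (b : G)) • m = m
        rw [mul_smul, hb m, ha m]
      inv_mem' := fun {a} ha m => by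
        show ((a : G)⁻¹) • m = m
        rw [inv_smul_eq_iff, ha m] }
  have hS : IsClosed (S : Set K) := by
    have e : (S : Set K) = ⋂ m : M, {k : K | (k : G) • m = m} := by
      ext k
      simp only [mem_iInter]
      rfl
    rw [e]
    exact isClosed_iInter fun m =>
      isClosed_eq (continuous_subtype_val.smul continuous_const) continuous_const
  intro g hg
  have key : (⟨g, hg⟩ : K) ∈ S := by
    refine hC K hKc S hS (fun p _ φ hφ u m => ?_) _
    exact H p (K.subtype.comp φ) (continuous_subtype_val.comp hφ) (fun x => hKV (φ x).2) u m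
  exact key

/-- A topological group acting faithfully has no small compact subgroups. -/
theorem no_small_compact (n : ℕ) [ChartedSpace (EuclideanSpace ℝ (Fin n)) M] (G : Type*) [Group G]
    [TopologicalSpace G] [MulAction G M] [ContinuousSMul G M] [FaithfulSMul G M]
    (hC : ∀ K : Subgroup G, IsCompact (K : Set G) → CptStrong K) :
    ∃ V ∈ 𝓝 (1 : G), ∀ K : Subgroup G, IsCompact (K : Set G) → (K : Set G) ⊆ V → K = ⊥ := by
  obtain ⟨V, hV, H⟩ := small_compact (M := M) n G hC
  refine ⟨V, hV, fun K hKc hKV => ?_⟩
  rw [Subgroup.eq_bot_iff_forall]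
  intro g hg
  exact eq_of_smul_eq_smul (α := M) fun m => by rw [one_smul]; exact H K hKc hKV g hg m

omit [PreconnectedSpace M] in
/-- A group acting faithfully and continuously on a Hausdorff space is Hausdorff. -/
theorem t2_of_faithful (G : Type*) [Group G] [TopologicalSpace G] [IsTopologicalGroup G]
    [MulAction G M] [ContinuousSMul G M] [FaithfulSMul G M] : T2Space G := by
  have h1 : IsClosed ({1} : Set G) := by
    have e : ({1} : Set G) = ⋂ m : M, {g : G | g • m = m} := by
      ext g
      simp only [mem_iInter, mem_singleton_iff, mem_ofPred_eq]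
      constructor
      · rintro rfl m
        exact one_smul G m
      · intro h
        exact eq_of_smul_eq_smul (α := M) fun m => by rw [one_smul]; exact h m
    rw [e]
    exact isClosed_iInter fun m => isClosed_eq (continuous_id.smul continuous_const) continuous_const
  have : T1Space G := IsTopologicalGroup.t1Space G h1
  infer_instance

/-- A locally compact group acting faithfully has no small subgroups. -/
theorem nss (n : ℕ) [ChartedSpace (EuclideanSpace ℝ (Fin n)) M] (G : Type*) [Group G]
    [TopologicalSpace G] [IsTopologicalGroup G] [LocallyCompactSpace G] [MulAction G M]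
    [ContinuousSMul G M] [FaithfulSMul G M]
    (hC : ∀ K : Subgroup G, IsCompact (K : Set G) → CptStrong K) :
    ∃ V ∈ 𝓝 (1 : G), ∀ H : Subgroup G, (H : Set G) ⊆ V → H = ⊥ := by
  have : T2Space G := t2_of_faithful (M := M) G
  obtain ⟨V, hV, H⟩ := no_small_compact (M := M) n G hC
  obtain ⟨C, hC, hCV, hCc⟩ := local_compact_nhds hV
  refine ⟨C, hC, fun K hK => ?_⟩
  have h1 : (K.topologicalClosure : Set G) ⊆ C := closure_minimal hK hCc.isClosed
  have h2 : IsCompact (K.topologicalClosure : Set G) :=
    hCc.of_isClosed_subset K.isClosed_topologicalClosure h1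
  have h3 := H _ h2 (h1.trans hCV)
  rw [eq_bot_iff, ← h3]
  exact K.le_topologicalClosure

end Global

/-- **Quantitative local form** for compact groups. -/
theorem local_compact (n : ℕ) : ∃ c > (0 : ℝ), ∀ (K : Type*) [Group K] [TopologicalSpace K]
    (_ : CptStrong K)
    (W : Set (EuclideanSpace ℝ (Fin n))) [MulAction K W] [ContinuousSMul K W], IsOpen W →
    ∀ hW : closedBall (0 : EuclideanSpace ℝ (Fin n)) 1 ⊆ W,
    (∀ (k : K) (x : W), ‖(x : EuclideanSpace ℝ (Fin n))‖ ≤ 1 →
      ‖((k • x : W) : EuclideanSpace ℝ (Fin n)) - x‖ ≤ c) →
    ∀ k : K, k • (⟨0, hW (mem_closedBall_self zero_le_one)⟩ : W) =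
      ⟨0, hW (mem_closedBall_self zero_le_one)⟩ := by
  classical
  obtain ⟨c, hc, hln⟩ := ln n
  refine ⟨c, hc, ?_⟩
  intro K _ _ hC W _ _ hWo hW hd k
  set o : W := ⟨0, hW (mem_closedBall_self zero_le_one)⟩ with ho
  let S : Subgroup K := MulAction.stabilizer K o
  have hS : IsClosed (S : Set K) := by
    have e : (S : Set K) = {k : K | k • o = o} := rfl
    rw [e]
    exact isClosed_eq (continuous_id.smul continuous_const) continuous_const
  have key : k ∈ S := by
    refine hC S hS (fun p _ φ hφ u₀ => ?_) _
    -- the local action of `ℤ_p`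
    let a : ℤ_[p] → EuclideanSpace ℝ (Fin n) → EuclideanSpace ℝ (Fin n) := fun u x =>
      if hx : x ∈ W then ((φ (Multiplicative.ofAdd u) • (⟨x, hx⟩ : W) : W) :
        EuclideanSpace ℝ (Fin n)) else x
    have ha : ∀ u (x : EuclideanSpace ℝ (Fin n)) (hx : x ∈ W), a u x =
        ((φ (Multiplicative.ofAdd u) • (⟨x, hx⟩ : W) : W) : EuclideanSpace ℝ (Fin n)) := by
      intro u x hx
      simp only [a, dif_pos hx]
    have act : LocAct p W a :=
      { maps := fun u x hx => by
          rw [ha u x hx]
          exact Subtype.coe_prop _
        zero := fun x hx => by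
          rw [ha 0 x hx, ofAdd_zero, map_one, one_smul]
        add := fun u v x hx => by
          have h1 : a v x ∈ W := by rw [ha v x hx]; exact Subtype.coe_prop _
          rw [ha (u + v) x hx, ha u _ h1, ofAdd_add, map_mul, mul_smul]
          congr 2
          apply Subtype.ext
          exact (ha v x hx).symm
        cont := by
          rw [continuousOn_iff_continuous_domRestrict]
          have h1 : Continuous fun q : (univ ×ˢ W : Set (ℤ_[p] × EuclideanSpace ℝ (Fin n))) =>
              ((φ (Multiplicative.ofAdd q.1.1) • (⟨q.1.2, q.2.2⟩ : W) : W) :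
                EuclideanSpace ℝ (Fin n)) := by
            apply continuous_subtype_val.comp
            apply Continuous.smul
            · exact hφ.comp (continuous_ofAdd.comp (continuous_fst.comp continuous_subtype_val))
            · exact (continuous_snd.comp continuous_subtype_val).subtype_mk _
          refine h1.congr fun q => ?_
          exact (ha q.1.1 q.1.2 q.2.2).symm }
    have h1 := hln p W a hWo act hW (fun u x hx => by
      have hxW : x ∈ W := hW hx
      rw [ha u x hxW]
      exact hd _ ⟨x, hxW⟩ (by simpa using hx)) u₀.toAdd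
    rw [ha _ 0 (hW (mem_closedBall_self zero_le_one))] at h1
    show φ u₀ • o = o
    exact Subtype.ext h1
  exact key

end Vale.Agent.P228.H615
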