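import Mathlib

/-!
# Profinite groups: `p`-adic one-parameter subgroups

* `exists_hom_of_tendsto`: an element `v` of a profinite group with `v ^ (p ^ k) → 1` is the image of
  `1` under a continuous homomorphism `ℤ_p → K`;
* `exists_pro_p`: if `u ∉ N`, `N` open normal, there are a prime `p` and `v ∉ N` with
  `v ^ (p ^ k) → 1`;
* `exists_compact_open_subgroup`: van Dantzig's theorem.
-/

set_option autoImplicit false

namespace Vale.Agent.P228.H615

open Filter Topology Set Pointwise

section VanDantzig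

variable {G : Type*} [Group G] [TopologicalSpace G] [IsTopologicalGroup G]

/-- A compact open neighbourhood of `1` contains an open subgroup. -/
theorem exists_subgroup_of_compact_open {W : Set G} (hW : IsCompact W) (hWo : IsOpen W)
    (h1 : (1 : G) ∈ W) : ∃ H : Subgroup G, IsOpen (H : Set G) ∧ (H : Set G) ⊆ W := by
  obtain ⟨V, hV, hWV⟩ := compact_open_separated_mul_right hW hWo Subset.rfl
  have hV' : V ∩ V⁻¹ ∈ 𝓝 (1 : G) := inter_mem hV (inv_mem_nhds_one G hV)
  refine ⟨Subgroup.closure (V ∩ V⁻¹), ?_, ?_⟩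
  · exact Subgroup.isOpen_of_mem_nhds _ (g := 1) (mem_of_superset hV' Subgroup.subset_closure)
  · intro x hx
    have key : ∀ w ∈ W, w * x ∈ W := by
      induction hx using Subgroup.closure_induction with
      | mem y hy => exact fun w hw => hWV (mul_mem_mul hw hy.1)
      | one => intro w hw; rwa [mul_one]
      | mul y z _ _ ihy ihz => intro w hw; rw [← mul_assoc]; exact ihz _ (ihy w hw)
      | inv y hy ihy =>
        intro w hw
        have h2 : ∀ y ∈ Subgroup.closure (V ∩ V⁻¹), ∀ w ∈ W, w * y ∈ W := by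
          intro y hy
          induction hy using Subgroup.closure_induction'' with
          | mem y hy => exact fun w hw => hWV (mul_mem_mul hw hy.1)
          | inv_mem y hy => exact fun w hw => hWV (mul_mem_mul hw hy.2)
          | one => intro w hw; rwa [mul_one]
          | mul y z _ _ ihy ihz => intro w hw; rw [← mul_assoc]; exact ihz _ (ihy w hw)
        exact h2 _ (inv_mem hy) w hw
    have := key 1 h1
    rwa [one_mul] at this

/-- **van Dantzig**: in a totally disconnected locally compact group every neighbourhood of `1`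
contains a compact open subgroup. -/
theorem exists_compact_open_subgroup [LocallyCompactSpace G] [TotallyDisconnectedSpace G]
    {V : Set G} (hV : V ∈ 𝓝 (1 : G)) :
    ∃ H : Subgroup G, IsOpen (H : Set G) ∧ IsCompact (H : Set G) ∧ (H : Set G) ⊆ V := by
  have : T1Space G := inferInstance
  have : T2Space G := inferInstance
  obtain ⟨C, hC, hCV, hCc⟩ := local_compact_nhds hV
  obtain ⟨W, hW, h1W, hWC⟩ := (loc_compact_Haus_tot_disc_of_zero_dim (H := G)).mem_nhds_iff.1
    (interior_mem_nhds.2 hC)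
  have hWs : W ⊆ C := hWC.trans interior_subset
  have hWc : IsCompact W := hCc.of_isClosed_subset hW.1 hWs
  obtain ⟨H, hHo, hHW⟩ := exists_subgroup_of_compact_open hWc hW.2 h1W
  refine ⟨H, hHo, ?_, hHW.trans (hWs.trans hCV)⟩
  exact hWc.of_isClosed_subset (Subgroup.isClosed_of_isOpen H hHo) hHW

end VanDantzig

section Profinite

variable {K : Type*} [Group K] [TopologicalSpace K] [IsTopologicalGroup K] [CompactSpace K]
  [TotallyDisconnectedSpace K]

/-- open normal subgroups separate -/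
theorem eq_one_of_forall_mem {w : K} (h : ∀ N : OpenNormalSubgroup K, w ∈ N) : w = 1 := by
  by_contra hw
  have h1 : (1 : K) ∈ ({w} : Set K)ᶜ := fun h => hw (mem_singleton_iff.1 h).symm
  obtain ⟨N, hN⟩ := ProfiniteGrp.exist_openNormalSubgroup_sub_open_nhds_of_one
    (isOpen_compl_singleton (x := w)) h1
  exact hN (h N) rfl

theorem tendsto_one_iff {ι : Type*} {l : Filter ι} {f : ι → K} :
    Tendsto f l (𝓝 1) ↔ ∀ N : OpenNormalSubgroup K, ∀ᶠ i in l, f i ∈ N := by
  constructor
  · intro h N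
    exact h.eventually (N.toOpenSubgroup.isOpen.mem_nhds N.one_mem)
  · intro h U hU
    obtain ⟨O, hOU, hO, h1⟩ := mem_nhds_iff.1 hU
    obtain ⟨N, hN⟩ := ProfiniteGrp.exist_openNormalSubgroup_sub_open_nhds_of_one hO h1
    exact (h N).mono fun i hi => hOU (hN hi)

/-- An element `v` with `v ^ (p ^ k) → 1` generates a `p`-adic one-parameter subgroup. -/
theorem exists_hom_of_tendsto (p : ℕ) [Fact p.Prime] (v : K)
    (hv : Tendsto (fun k : ℕ => v ^ (p ^ k)) atTop (𝓝 1)) :
    ∃ φ : Multiplicative ℤ_[p] →* K, Continuous φ ∧ φ (Multiplicative.ofAdd 1) = v := by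
  have : T1Space K := inferInstance
  have : T2Space K := inferInstance
  let Γ : Subgroup (Multiplicative ℤ_[p] × K) :=
    (Subgroup.zpowers ((Multiplicative.ofAdd (1 : ℤ_[p]), v))).topologicalClosure
  have hΓc : IsClosed (Γ : Set (Multiplicative ℤ_[p] × K)) := Subgroup.isClosed_topologicalClosure _
  have : CompactSpace Γ := isCompact_iff_compactSpace.1 hΓc.isCompact
  let π : Γ →* Multiplicative ℤ_[p] := (MonoidHom.fst _ _).comp Γ.subtype
  have hπc : Continuous π := continuous_fst.comp continuous_subtype_val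
  -- injectivity
  have hinj : Function.Injective π := by
    rw [injective_iff_map_eq_one]
    rintro ⟨⟨a, w⟩, hx⟩ h
    have ha : a = 1 := h
    subst ha
    have hw : w = 1 := by
      apply eq_one_of_forall_mem
      intro N
      obtain ⟨k, hk⟩ := ((tendsto_one_iff.1 hv) N).exists
      -- the open set
      have hO1 : IsOpen {x : ℤ_[p] | ‖x‖ < (p : ℝ) ^ (-(k : ℤ) + 1)} :=
        isOpen_lt continuous_norm continuous_const
      have hO : IsOpen ({x : Multiplicative ℤ_[p] | ‖x.toAdd‖ < (p : ℝ) ^ (-(k : ℤ) + 1)} ×ˢ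
          ((fun y => w⁻¹ * y) ⁻¹' (N : Set K))) := by
        refine IsOpen.prod (hO1.preimage continuous_toAdd) ?_
        exact N.toOpenSubgroup.isOpen.preimage (continuous_const.mul continuous_id)
      have hmem : ((1 : Multiplicative ℤ_[p]), w) ∈
          ({x : Multiplicative ℤ_[p] | ‖x.toAdd‖ < (p : ℝ) ^ (-(k : ℤ) + 1)} ×ˢ
          ((fun y => w⁻¹ * y) ⁻¹' (N : Set K))) := by
        refine ⟨?_, ?_⟩
        · show ‖(0 : ℤ_[p])‖ < _
          rw [norm_zero]
          have : (0 : ℝ) < p := by exact_mod_cast (Fact.out : p.Prime).pos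
          positivity
        · show w⁻¹ * w ∈ N
          rw [inv_mul_cancel]
          exact N.one_mem
      have hcl : ((1 : Multiplicative ℤ_[p]), w) ∈
          closure ((Subgroup.zpowers ((Multiplicative.ofAdd (1 : ℤ_[p]), v)) :
            Subgroup _) : Set (Multiplicative ℤ_[p] × K)) := hx
      obtain ⟨z, ⟨hz1, hz2⟩, hz⟩ := mem_closure_iff.1 hcl _ hO hmem
      obtain ⟨n, rfl⟩ := Subgroup.mem_zpowers_iff.1 hz
      have e1 : (((Multiplicative.ofAdd (1 : ℤ_[p]), v)) ^ n : Multiplicative ℤ_[p] × K).1.toAdd =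
          (n : ℤ_[p]) := by
        rw [Prod.pow_fst, toAdd_zpow, toAdd_ofAdd]
        simp
      have hz1' : ‖(n : ℤ_[p])‖ < (p : ℝ) ^ (-(k : ℤ) + 1) := by
        have := hz1
        simp only [mem_ofPred_eq] at this
        rwa [e1] at this
      have hz2' : w⁻¹ * v ^ n ∈ N := hz2
      have hdvd : ((p ^ k : ℕ) : ℤ) ∣ n := by
        have h2 := (PadicInt.norm_le_pow_iff_norm_lt_pow_add_one (n : ℤ_[p]) (-(k : ℤ))).2 hz1'
        have h1 := PadicInt.norm_int_le_pow_iff_dvd.1 h2
        exact_mod_cast h1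
      obtain ⟨m, rfl⟩ := hdvd
      have h3 : v ^ (((p ^ k : ℕ) : ℤ) * m) ∈ N := by
        rw [zpow_mul, zpow_natCast]
        exact N.toSubgroup.zpow_mem hk m
      have h4 : w⁻¹ ∈ N := by
        have := N.toSubgroup.mul_mem hz2' (N.toSubgroup.inv_mem h3)
        rwa [mul_assoc, mul_inv_cancel, mul_one] at this
      have h5 := N.toSubgroup.inv_mem h4
      rwa [inv_inv] at h5
    subst hw
    rfl
  -- surjectivity
  have hsurj : Function.Surjective π := by
    rw [← range_eq_univ]
    have h1 : IsClosed (range π) := (isCompact_range hπc).isClosed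
    have h2 : Dense (range fun n : ℤ => (Multiplicative.ofAdd (n : ℤ_[p]))) := by
      have h3 := PadicInt.denseRange_intCast (p := p)
      exact h3
    have h4 : (range fun n : ℤ => (Multiplicative.ofAdd (n : ℤ_[p]))) ⊆ range π := by
      rintro _ ⟨n, rfl⟩
      refine ⟨⟨((Multiplicative.ofAdd (1 : ℤ_[p]), v)) ^ n, ?_⟩, ?_⟩
      · exact Subgroup.le_topologicalClosure _ (Subgroup.zpow_mem _ (Subgroup.mem_zpowers _) n)
      · show (((Multiplicative.ofAdd (1 : ℤ_[p]), v)) ^ n : Multiplicative ℤ_[p] × K).1 = _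
        rw [Prod.pow_fst, ← ofAdd_zsmul]
        simp
    exact (h2.mono h4).closure_eq ▸ h1.closure_eq.symm
  let e : Γ ≃ Multiplicative ℤ_[p] := Equiv.ofBijective π ⟨hinj, hsurj⟩
  have hec : Continuous e := hπc
  let E : Γ ≃ₜ Multiplicative ℤ_[p] := hec.homeoOfEquivCompactToT2
  let EM : Γ ≃* Multiplicative ℤ_[p] := MulEquiv.ofBijective π ⟨hinj, hsurj⟩
  have hEM : ∀ x, EM.symm x = E.symm x := by
    intro x
    apply EM.injective
    rw [EM.apply_symm_apply]
    have : E (E.symm x) = x := E.apply_symm_apply x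
    exact this.symm
  refine ⟨((MonoidHom.snd _ _).comp Γ.subtype).comp EM.symm.toMonoidHom, ?_, ?_⟩
  · have h5 : Continuous fun x => EM.symm x := by
      have : (fun x => EM.symm x) = fun x => E.symm x := funext hEM
      rw [this]
      exact E.symm.continuous
    exact continuous_snd.comp (continuous_subtype_val.comp h5)
  · have h6 : EM.symm (Multiplicative.ofAdd 1) = ⟨(Multiplicative.ofAdd (1 : ℤ_[p]), v),
        Subgroup.le_topologicalClosure _ (Subgroup.mem_zpowers _)⟩ := by
      rw [MulEquiv.symm_apply_eq]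
      rfl
    show (EM.symm (Multiplicative.ofAdd 1) : Multiplicative ℤ_[p] × K).2 = v
    rw [h6]

/-- Elements outside an open subgroup have a `p`-component outside it for some `p`. -/
theorem exists_pro_p (U : OpenSubgroup K) {u : K} (hu : u ∉ U) :
    ∃ p : ℕ, p.Prime ∧ ∃ v : K, v ∉ U ∧ Tendsto (fun k : ℕ => v ^ (p ^ k)) atTop (𝓝 1) := by
  classical
  -- the order of `u` modulo an open subgroup
  have hfin : ∀ U' : OpenSubgroup K, ∃ m : ℕ, 0 < m ∧ ∀ t : ℕ, u ^ t ∈ U' ↔ m ∣ t := by
    intro U'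
    have : Finite (K ⧸ U'.toSubgroup) :=
      Subgroup.quotient_finite_of_isOpen U'.toSubgroup U'.isOpen
    refine ⟨Function.minimalPeriod (fun x => u • x) ((1 : K) : K ⧸ U'.toSubgroup), ?_, fun t => ?_⟩
    · exact Function.minimalPeriod_pos_of_mem_periodicPts
        ((MulAction.injective u).mem_periodicPts _)
    · rw [← MulAction.pow_smul_eq_iff_minimalPeriod_dvd]
      have e : u ^ t • ((1 : K) : K ⧸ U'.toSubgroup) = ((u ^ t : K) : K ⧸ U'.toSubgroup) := by
        rw [MulAction.Quotient.smul_coe, smul_eq_mul, mul_one]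
      rw [e, eq_comm, QuotientGroup.eq, inv_one, one_mul]
      rfl
  obtain ⟨m, hm0, hm⟩ := hfin U
  have hm1 : m ≠ 1 := by
    rintro rfl
    apply hu
    have := (hm 1).2 (dvd_refl 1)
    rwa [pow_one] at this
  obtain ⟨p, hp, hpm⟩ := Nat.exists_prime_and_dvd hm1
  let t : ℕ → ℕ := fun j => ∏ i ∈ (Finset.range j).filter (fun i => ¬ p ∣ (i + 1)), (i + 1)
  have ht1 : ∀ j, ¬ p ∣ t j := by
    intro j h
    obtain ⟨i, hi, hpi⟩ := (hp.prime.dvd_finsetProd_iff _).1 h
    exact (Finset.mem_filter.1 hi).2 hpi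
  have ht2 : ∀ d, 0 < d → ¬ p ∣ d → ∀ j, d ≤ j → d ∣ t j := by
    intro d hd hpd j hj
    have h1 : d - 1 ∈ (Finset.range j).filter (fun i => ¬ p ∣ (i + 1)) := by
      rw [Finset.mem_filter, Finset.mem_range, Nat.sub_add_cancel hd]
      exact ⟨by omega, hpd⟩
    have h2 := Finset.dvd_prod_of_mem (fun i => i + 1) h1
    have h3 : d - 1 + 1 = d := Nat.sub_add_cancel hd
    simp only [h3] at h2
    exact h2
  obtain ⟨v, hv⟩ := exists_clusterPt_of_compactSpace (map (fun j => u ^ t j) atTop)
  have hv' : ∀ U ∈ 𝓝 v, ∃ᶠ j in atTop, u ^ t j ∈ U := by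
    have : MapClusterPt v atTop (fun j => u ^ t j) := hv
    exact mapClusterPt_iff_frequently.1 this
  refine ⟨p, hp, v, ?_, ?_⟩
  · intro hvN
    obtain ⟨j, hj⟩ := (hv' _ (U.isOpen.mem_nhds hvN)).exists
    exact ht1 j (hpm.trans ((hm _).1 hj))
  · rw [tendsto_one_iff]
    intro N'
    obtain ⟨m', hm0', hm'⟩ := hfin N'.toOpenSubgroup
    obtain ⟨a, d, hpd, hmd⟩ := Nat.exists_eq_pow_mul_and_not_dvd hm0'.ne' p hp.ne_one
    have hd0 : 0 < d := Nat.pos_of_ne_zero fun h => hpd (h ▸ dvd_zero p)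
    have hO : ((fun y => v⁻¹ * y) ⁻¹' (N' : Set K)) ∈ 𝓝 v := by
      apply (N'.toOpenSubgroup.isOpen.preimage (continuous_const.mul continuous_id)).mem_nhds
      show v⁻¹ * v ∈ N'
      rw [inv_mul_cancel]
      exact N'.one_mem
    obtain ⟨j, hjN, hj⟩ := ((hv' _ hO).and_eventually (eventually_ge_atTop d)).exists
    have h1 : v⁻¹ * u ^ t j ∈ N' := hjN
    have key : v ^ (p ^ a) ∈ N' := by
      have e1 : (QuotientGroup.mk v : K ⧸ N'.toSubgroup) = QuotientGroup.mk (u ^ t j) :=
        QuotientGroup.eq.2 h1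
      have e2 : (QuotientGroup.mk (v ^ (p ^ a)) : K ⧸ N'.toSubgroup) = 1 := by
        rw [QuotientGroup.mk_pow, e1, ← QuotientGroup.mk_pow, ← pow_mul,
          QuotientGroup.eq_one_iff]
        refine (hm' _).2 ?_
        rw [hmd, mul_comm (t j)]
        exact mul_dvd_mul_left _ (ht2 d hd0 hpd j hj)
      exact (QuotientGroup.eq_one_iff _).1 e2
    filter_upwards [eventually_ge_atTop a] with k hk
    obtain ⟨b, rfl⟩ := Nat.exists_eq_add_of_le hk
    rw [pow_add, pow_mul]
    exact N'.toSubgroup.pow_mem key _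

/-- A closed subgroup containing the image of `1` under every continuous homomorphism `ℤ_p → K`, for
every prime `p`, is the whole group. -/
theorem mem_of_homs {S : Subgroup K} (hS : IsClosed (S : Set K))
    (h : ∀ (p : ℕ) [Fact p.Prime] (φ : Multiplicative ℤ_[p] →* K), Continuous φ →
      φ (Multiplicative.ofAdd 1) ∈ S) (u : K) : u ∈ S := by
  by_contra hu
  have h1 := ProfiniteGrp.closedSubgroup_eq_sInf_open (G := K) ⟨S, hS⟩
  have h2 : u ∉ sInf {N : Subgroup K | IsOpen (N : Set K) ∧ S ≤ N} := by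
    intro h3
    apply hu
    have h4 : u ∈ ((⟨S, hS⟩ : ClosedSubgroup K) : Subgroup K) := by
      rw [h1]
      exact h3
    exact h4
  rw [Subgroup.mem_sInf] at h2
  push Not at h2
  obtain ⟨N, ⟨hNo, hSN⟩, huN⟩ := h2
  obtain ⟨p, hp, v, hvN, hv⟩ := exists_pro_p ⟨N, hNo⟩ (u := u) huN
  have : Fact p.Prime := ⟨hp⟩
  obtain ⟨φ, hφ, hφ1⟩ := exists_hom_of_tendsto p v hv
  apply hvN
  have h5 := h p φ hφ
  rw [hφ1] at h5
  exact hSN h5

end Profinite

end Vale.Agent.P228.H615
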