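import Vale.Agent.P228.H615.Compact

/-!
# The final layer: from the structure theorem `CptStrong` on compact groups
-/

set_option autoImplicit false

namespace Vale.Agent.P228.H615.Layer

open Filter Topology Set Metric

universe u v w

/-- In a compact Hausdorff group, a closed subgroup which contains the image of every continuous
homomorphism `ℤ_p → K`, for every prime `p`, is the whole group. -/
def CptStrong.{x} : Prop := ∀ (K : Type x) [Group K] [TopologicalSpace K] [IsTopologicalGroup K]
  [CompactSpace K] [T2Space K] (S : Subgroup K), IsClosed (S : Set K) →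
  (∀ (p : ℕ) [Fact p.Prime] (φ : Multiplicative ℤ_[p] →* K), Continuous φ → ∀ u, φ u ∈ S) → S = ⊤

theorem CptStrong.toPt (h : CptStrong.{v}) (K : Type v) [Group K] [TopologicalSpace K]
    [IsTopologicalGroup K] [CompactSpace K] [T2Space K] : H615.CptStrong K := by
  intro S hS hφ g
  rw [h K S hS hφ]
  trivial

theorem CptStrong.sub (h : CptStrong.{v}) (G : Type v) [Group G] [TopologicalSpace G]
    [IsTopologicalGroup G] [T2Space G] (K : Subgroup G) (hK : IsCompact (K : Set G)) :
    H615.CptStrong K := by
  have : CompactSpace K := isCompact_iff_compactSpace.1 hK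
  exact h.toPt K

/-- Small compact subgroups act trivially. -/
theorem small_compact (h : CptStrong.{v}) (n : ℕ) (M : Type u) [TopologicalSpace M] [T2Space M]
    [ConnectedSpace M] [ChartedSpace (EuclideanSpace ℝ (Fin n)) M] (G : Type v) [Group G]
    [TopologicalSpace G] [IsTopologicalGroup G] [T2Space G] [MulAction G M] [ContinuousSMul G M] :
    ∃ V ∈ 𝓝 (1 : G), ∀ K : Subgroup G, IsCompact (K : Set G) →
      (K : Set G) ⊆ V → ∀ g ∈ K, ∀ m : M, g • m = m :=
  H615.small_compact (M := M) n G fun K hK => h.sub G K hK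

/-- A topological group acting faithfully has no small compact subgroups. -/
theorem no_small_compact (h : CptStrong.{v}) (n : ℕ) (M : Type u) [TopologicalSpace M] [T2Space M]
    [ConnectedSpace M] [ChartedSpace (EuclideanSpace ℝ (Fin n)) M] (G : Type v) [Group G]
    [TopologicalSpace G] [IsTopologicalGroup G] [MulAction G M] [ContinuousSMul G M]
    [FaithfulSMul G M] :
    ∃ V ∈ 𝓝 (1 : G), ∀ K : Subgroup G, IsCompact (K : Set G) → (K : Set G) ⊆ V → K = ⊥ := by
  have : T2Space G := H615.t2_of_faithful (M := M) G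
  exact H615.no_small_compact (M := M) n G fun K hK => h.sub G K hK

/-- A locally compact group acting faithfully has no small subgroups. -/
theorem nss (h : CptStrong.{v}) (n : ℕ) (M : Type u) [TopologicalSpace M] [T2Space M]
    [ConnectedSpace M] [ChartedSpace (EuclideanSpace ℝ (Fin n)) M] (G : Type v) [Group G]
    [TopologicalSpace G] [IsTopologicalGroup G] [LocallyCompactSpace G] [MulAction G M]
    [ContinuousSMul G M] [FaithfulSMul G M] :
    ∃ V ∈ 𝓝 (1 : G), ∀ H : Subgroup G, (H : Set G) ⊆ V → H = ⊥ := by
  have : T2Space G := H615.t2_of_faithful (M := M) G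
  exact H615.nss (M := M) n G fun K hK => h.sub G K hK

/-- Quantitative local form: the constant depends only on the dimension. -/
theorem local_compact (h : CptStrong.{w}) (n : ℕ) : ∃ c > (0 : ℝ), ∀ (K : Type w) [Group K]
    [TopologicalSpace K] [IsTopologicalGroup K] [CompactSpace K] [T2Space K]
    (W : Set (EuclideanSpace ℝ (Fin n))) [MulAction K W] [ContinuousSMul K W], IsOpen W →
    ∀ hW : closedBall (0 : EuclideanSpace ℝ (Fin n)) 1 ⊆ W,
    (∀ (k : K) (x : W), ‖(x : EuclideanSpace ℝ (Fin n))‖ ≤ 1 →
      ‖((k • x : W) : EuclideanSpace ℝ (Fin n)) - x‖ ≤ c) →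
    ∀ k : K, k • (⟨0, hW (mem_closedBall_self zero_le_one)⟩ : W) =
      ⟨0, hW (mem_closedBall_self zero_le_one)⟩ := by
  obtain ⟨c, hc, H⟩ := H615.local_compact n
  refine ⟨c, hc, ?_⟩
  intro K _ _ _ _ _ W _ _ hWo hW hd k
  exact H K (h.toPt K) W hWo hW hd k

end Vale.Agent.P228.H615.Layer
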