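import Vale.Agent.P228.H615.Manifold
import Vale.Agent.P228.H615.Groups

/-!
# Totally disconnected transformation groups of manifolds

* `small_profinite`: compact totally disconnected subgroups near the identity act trivially;
* `isOpen_kernel`: a totally disconnected locally compact group acts with open kernel;
* `local_profinite`: the quantitative local form, with a constant which depends on the dimension
  only.
-/

set_option autoImplicit false

namespace Vale.Agent.P228.H615

open Filter Topology Set Metric

section Global

variable {M : Type*} [TopologicalSpace M] [T2Space M] [PreconnectedSpace M]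

/-- Small compact totally disconnected subgroups act trivially. -/
theorem small_profinite (n : ℕ) [ChartedSpace (EuclideanSpace ℝ (Fin n)) M] (G : Type*) [Group G]
    [TopologicalSpace G] [IsTopologicalGroup G] [MulAction G M] [ContinuousSMul G M] :
    ∃ V ∈ 𝓝 (1 : G), ∀ K : Subgroup G, IsCompact (K : Set G) → IsTotallyDisconnected (K : Set G) →
      (K : Set G) ⊆ V → ∀ g ∈ K, ∀ m : M, g • m = m := by
  obtain ⟨V, hV, H⟩ := exists_nhds_trivial n (M := M) (G := G)
  refine ⟨V, hV, fun K hKc hKt hKV => ?_⟩
  have : CompactSpace K := isCompact_iff_compactSpace.1 hKc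
  have : TotallyDisconnectedSpace K :=
    (totallyDisconnectedSpace_subtype_iff (s := (K : Set G))).2 hKt
  let S : Subgroup K :=
    { carrier := {k | ∀ m : M, (k : G) • m = m}
      one_mem' := fun m => one_smul G m
      mul_mem' := fun {a b} ha hb m => by
        show ((a : G) * (b : G)) • m = m
        rw [mul_smul, hb m, ha m]
      inv_mem' := fun {a} ha m => by
        show ((a : G)⁻¹) • m = m
        rw [inv_smul_eq_iff, ha m] }
  have hS : IsClosed (S : Set K) := by
    have e : (S : Set K) = ⋂ m : M, {k : K | (k : G) • m = m} := by
      ext k
      simp only [mem_iInter]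
      rfl
    rw [e]
    exact isClosed_iInter fun m =>
      isClosed_eq (continuous_subtype_val.smul continuous_const) continuous_const
  intro g hg
  have key : (⟨g, hg⟩ : K) ∈ S := by
    refine mem_of_homs hS (fun p _ φ hφ => ?_) _
    intro m
    have := H p (K.subtype.comp φ) (continuous_subtype_val.comp hφ)
      (fun x => hKV (φ x).2) (Multiplicative.ofAdd 1) m
    exact this
  exact key

/-- A totally disconnected locally compact group acts with open kernel. -/
theorem isOpen_kernel (n : ℕ) [ChartedSpace (EuclideanSpace ℝ (Fin n)) M] (G : Type*) [Group G]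
    [TopologicalSpace G] [IsTopologicalGroup G] [LocallyCompactSpace G]
    [TotallyDisconnectedSpace G] [MulAction G M] [ContinuousSMul G M] :
    IsOpen {g : G | ∀ m : M, g • m = m} := by
  obtain ⟨V, hV, H⟩ := small_profinite (M := M) n G
  obtain ⟨K, hKo, hKc, hKV⟩ := exists_compact_open_subgroup hV
  have h1 := H K hKc (isTotallyDisconnected_of_totallyDisconnectedSpace _) hKV
  let S : Subgroup G :=
    { carrier := {k | ∀ m : M, k • m = m}
      one_mem' := fun m => one_smul G m
      mul_mem' := fun {a b} ha hb m => by
        show (a * b) • m = m
        rw [mul_smul, hb m, ha m]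
      inv_mem' := fun {a} ha m => by
        show (a⁻¹) • m = m
        rw [inv_smul_eq_iff, ha m] }
  have h2 : K ≤ S := fun g hg => h1 g hg
  exact Subgroup.isOpen_mono h2 hKo

/-- A totally disconnected locally compact group which acts faithfully is discrete. -/
theorem discrete_of_faithful (n : ℕ) [ChartedSpace (EuclideanSpace ℝ (Fin n)) M] (G : Type*)
    [Group G] [TopologicalSpace G] [IsTopologicalGroup G] [LocallyCompactSpace G]
    [TotallyDisconnectedSpace G] [MulAction G M] [ContinuousSMul G M] [FaithfulSMul G M] :
    DiscreteTopology G := by
  have h := isOpen_kernel (M := M) n G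
  have e : {g : G | ∀ m : M, g • m = m} = {1} := by
    ext g
    rw [mem_singleton_iff]
    constructor
    · intro hg
      exact eq_of_smul_eq_smul (α := M) fun m => by rw [one_smul]; exact hg m
    · rintro rfl
      exact fun m => one_smul G m
  rw [e] at h
  exact discreteTopology_of_isOpen_singleton_one h

end Global

/-- **Quantitative local form.**  There is `c > 0`, depending only on `n`, such that every compact
totally disconnected group which acts continuously on an open set containing the closed unit ball
of `ℝ^n` and moves its points by at most `c` fixes the origin. -/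
theorem local_profinite (n : ℕ) : ∃ c > (0 : ℝ), ∀ (K : Type*) [Group K] [TopologicalSpace K]
    [IsTopologicalGroup K] [CompactSpace K] [TotallyDisconnectedSpace K]
    (W : Set (EuclideanSpace ℝ (Fin n))) [MulAction K W] [ContinuousSMul K W], IsOpen W →
    ∀ hW : closedBall (0 : EuclideanSpace ℝ (Fin n)) 1 ⊆ W,
    (∀ (k : K) (x : W), ‖(x : EuclideanSpace ℝ (Fin n))‖ ≤ 1 →
      ‖((k • x : W) : EuclideanSpace ℝ (Fin n)) - x‖ ≤ c) →
    ∀ k : K, k • (⟨0, hW (mem_closedBall_self zero_le_one)⟩ : W) =
      ⟨0, hW (mem_closedBall_self zero_le_one)⟩ := by
  classical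
  obtain ⟨c, hc, hln⟩ := ln n
  refine ⟨c, hc, ?_⟩
  intro K _ _ _ _ _ W _ _ hWo hW hd k
  set o : W := ⟨0, hW (mem_closedBall_self zero_le_one)⟩ with ho
  let S : Subgroup K := MulAction.stabilizer K o
  have hS : IsClosed (S : Set K) := by
    have e : (S : Set K) = {k : K | k • o = o} := rfl
    rw [e]
    exact isClosed_eq (continuous_id.smul continuous_const) continuous_const
  have key : k ∈ S := by
    refine mem_of_homs hS (fun p _ φ hφ => ?_) _
    -- the local action of `ℤ_p`
    let a : ℤ_[p] → EuclideanSpace ℝ (Fin n) → EuclideanSpace ℝ (Fin n) := fun u x =>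
      if hx : x ∈ W then ((φ (Multiplicative.ofAdd u) • (⟨x, hx⟩ : W) : W) :
        EuclideanSpace ℝ (Fin n)) else x
    have ha : ∀ u (x : EuclideanSpace ℝ (Fin n)) (hx : x ∈ W), a u x =
        ((φ (Multiplicative.ofAdd u) • (⟨x, hx⟩ : W) : W) : EuclideanSpace ℝ (Fin n)) := by
      intro u x hx
      simp only [a, dif_pos hx]
    have act : LocAct p W a :=
      { maps := fun u x hx => by
          rw [ha u x hx]
          exact Subtype.coe_prop _
        zero := fun x hx => by
          rw [ha 0 x hx, ofAdd_zero, map_one, one_smul]
        add := fun u v x hx => by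
          have h1 : a v x ∈ W := by rw [ha v x hx]; exact Subtype.coe_prop _
          rw [ha (u + v) x hx, ha u _ h1, ofAdd_add, map_mul, mul_smul]
          congr 2
          apply Subtype.ext
          exact (ha v x hx).symm
        cont := by
          rw [continuousOn_iff_continuous_domRestrict]
          have h1 : Continuous fun q : (univ ×ˢ W : Set (ℤ_[p] × EuclideanSpace ℝ (Fin n))) =>
              ((φ (Multiplicative.ofAdd q.1.1) • (⟨q.1.2, q.2.2⟩ : W) : W) :
                EuclideanSpace ℝ (Fin n)) := by
            apply continuous_subtype_val.comp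
            apply Continuous.smul
            · exact hφ.comp (continuous_ofAdd.comp (continuous_fst.comp continuous_subtype_val))
            · exact (continuous_snd.comp continuous_subtype_val).subtype_mk _
          refine h1.congr fun q => ?_
          exact (ha q.1.1 q.1.2 q.2.2).symm }
    have h1 := hln p W a hWo act hW (fun u x hx => by
      have hxW : x ∈ W := hW hx
      rw [ha u x hxW]
      exact hd _ ⟨x, hxW⟩ (by simpa using hx)) 1
    rw [ha 1 0 (hW (mem_closedBall_self zero_le_one))] at h1
    show φ (Multiplicative.ofAdd 1) • o = o
    exact Subtype.ext h1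
  exact key

end Vale.Agent.P228.H615
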