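import Vale.Agent.P228.H615.Newman

/-!
# Small one-parameter `p`-adic subgroups act trivially

For a continuous action of `G` on a connected manifold there is a neighbourhood `V` of the identity
such that for every prime `p` every continuous homomorphism `ℤ_p → G` with image in `V` acts
trivially.
-/

set_option linter.all false

namespace Vale.Agent.P228.H615

open Set Metric Topology Vale.Agent.P228.GR Vale.Agent.P228.GRL

/-- one small ball in a chart -/
theorem fixed_of_small {p : ℕ} [Fact p.Prime] {n : ℕ} {c : ℝ} (H : LN c p n) (hLN : 0 < c)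
    {M : Type*} [TopologicalSpace M] [AddAction ℤ_[p] M] [ContinuousVAdd ℤ_[p] M]
    (e : OpenPartialHomeomorph M (EuclideanSpace ℝ (Fin n))) {x₁ : M} (hx₁ : x₁ ∈ e.source)
    {R : ℝ} (hR : 0 < R) (hRs : closedBall (e x₁) R ⊆ e.target)
    (hk : ∀ u : ℤ_[p], ∀ x ∈ closedBall (e x₁) R, u +ᵥ e.symm x ∈ e.source ∧
      dist (e (u +ᵥ e.symm x)) x < c * (R / 2)) :
    x₁ ∈ interior (fixG p M 0) := by
  have hct : e x₁ ∈ e.target := e.map_source hx₁
  have hk' : ∀ u : ℤ_[p], ∀ x ∈ closedBall (e x₁) R, ((p : ℤ_[p]) ^ 0 * u) +ᵥ e.symm x ∈ e.source ∧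
      dist (chartAct e 0 u x) x < c * (R / 2) := by
    intro u x hx
    have h := hk u x hx
    simp only [chartAct, chartMap, pow_zero, one_mul]
    exact h
  let B : Set M := e.symm '' ball (e x₁) R
  have hBR : ball (e x₁) R ⊆ e.target := ball_subset_closedBall.trans hRs
  have hBopen : IsOpen B := e.symm.isOpen_image_of_subset_source isOpen_ball hBR
  let Nn : Set M := saturate (p := p) 0 B
  have hNopen : IsOpen Nn := isOpen_saturate 0 hBopen
  have hNs : Nn ⊆ e.source := by
    apply saturate_subset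
    rintro u _ ⟨x, hx, rfl⟩
    exact (hk' u x (ball_subset_closedBall hx)).1
  have act : LocAct p (e '' Nn) (chartAct (p := p) e 0) :=
    locAct_chartAct e 0 hNs (fun u m hm => saturate_inv 0 B u hm)
  have hW : IsOpen (e '' Nn) := isOpen_chart_image e hNopen hNs
  have hballW : ball (e x₁) R ⊆ e '' Nn := by
    intro x hx
    exact ⟨e.symm x, subset_saturate 0 B ⟨x, hx, rfl⟩, e.right_inv (hBR hx)⟩
  have h1 : ∀ᶠ y in 𝓝 (e x₁), e.symm y ∈ fixG p M 0 := by
    filter_upwards [ball_mem_nhds (e x₁) (show 0 < R / 4 by positivity)] with y hy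
    have hsub : closedBall y (R / 2) ⊆ ball (e x₁) R := by
      apply closedBall_subset_ball'
      rw [mem_ball] at hy
      linarith
    refine mem_fixG_of_chartAct e (fun u => (hk' u y ?_).1) (fun u => ?_)
    · exact ball_subset_closedBall (hsub (mem_closedBall_self (by positivity)))
    · refine H.scaled _ _ hW act y (R / 2) (by positivity) (hsub.trans hballW) ?_ u
      intro u x hx
      rw [← dist_eq_norm]
      exact (hk' u x (ball_subset_closedBall (hsub hx))).2.le
  have h2 := mem_interior_fixG_of_chart e hct h1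
  rwa [e.left_inv hx₁] at h2

/-- if a nonempty open set is fixed, everything is fixed -/
theorem fixed_of_interior {p : ℕ} [Fact p.Prime] {n : ℕ} (hLN : GRL.LocalNewman p n)
    {M : Type*} [TopologicalSpace M] [T2Space M] [PreconnectedSpace M]
    [ChartedSpace (EuclideanSpace ℝ (Fin n)) M] [AddAction ℤ_[p] M] [ContinuousVAdd ℤ_[p] M]
    {x₀ : M} (h : x₀ ∈ interior (fixG p M 0)) (u : ℤ_[p]) (m : M) : u +ᵥ m = m := by
  have hclopen : IsClopen (interior (fixG p M 0)) := by
    refine ⟨isClosed_of_closure_subset fun x hx => ?_, isOpen_interior⟩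
    exact touch_closed hLN (chartAt (EuclideanSpace ℝ (Fin n)) x) (mem_chart_source _ x) hx
  have huniv : interior (fixG p M 0) = univ := hclopen.eq_univ ⟨x₀, h⟩
  have h1 : m ∈ interior (fixG p M 0) := by rw [huniv]; trivial
  have h2 := interior_subset h1 u
  rwa [pow_zero, one_mul] at h2

/-- **small `p`-adic one-parameter subgroups act trivially**, uniformly in `p`. -/
theorem exists_nhds_trivial (n : ℕ) {M : Type*} [TopologicalSpace M] [T2Space M]
    [PreconnectedSpace M] [ChartedSpace (EuclideanSpace ℝ (Fin n)) M] {G : Type*} [Group G]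
    [TopologicalSpace G] [MulAction G M] [ContinuousSMul G M] :
    ∃ V ∈ 𝓝 (1 : G), ∀ (p : ℕ) [Fact p.Prime] (φ : Multiplicative ℤ_[p] →* G), Continuous φ →
      (∀ x, φ x ∈ V) → ∀ x (m : M), φ x • m = m := by
  obtain ⟨c, hc, hln⟩ := ln n
  rcases isEmpty_or_nonempty M with hM | ⟨⟨x₀⟩⟩
  · exact ⟨univ, Filter.univ_mem, fun p _ φ _ _ x m => hM.elim m⟩
  let e := chartAt (EuclideanSpace ℝ (Fin n)) x₀
  have hx₀ : x₀ ∈ e.source := mem_chart_source _ x₀
  have hct : e x₀ ∈ e.target := e.map_source hx₀
  obtain ⟨R, hR, hRs⟩ := nhds_basis_closedBall.mem_iff.1 (e.open_target.mem_nhds hct)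
  have hR0 : (0 : ℝ) < R := hR
  have htube : ∀ᶠ g in 𝓝 (1 : G), ∀ x ∈ closedBall (e x₀) R, g • e.symm x ∈ e.source ∧
      dist (e (g • e.symm x)) x < c * (R / 2) := by
    apply (isCompact_closedBall (e x₀) R).eventually_forall_of_forall_eventually
    intro x hx
    have hxt : x ∈ e.target := hRs hx
    have hx0 : (1 : G) • e.symm x ∈ e.source := by
      rw [one_smul]; exact e.map_target hxt
    have h1 : ContinuousAt (fun z : G × EuclideanSpace ℝ (Fin n) => e.symm z.2) (1, x) :=
      (e.continuousAt_symm hxt).comp (f := fun z : G × EuclideanSpace ℝ (Fin n) => z.2)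
        (x := (1, x)) continuousAt_snd
    have h2 : ContinuousAt (fun z : G × EuclideanSpace ℝ (Fin n) => z.1 • e.symm z.2) (1, x) :=
      continuousAt_fst.smul h1
    have h3 : ContinuousAt (fun z : G × EuclideanSpace ℝ (Fin n) => e (z.1 • e.symm z.2)) (1, x) :=
      (e.continuousAt hx0).comp
        (f := fun z : G × EuclideanSpace ℝ (Fin n) => z.1 • e.symm z.2) (x := (1, x)) h2
    have h4 : ContinuousAt (fun z : G × EuclideanSpace ℝ (Fin n) =>
        dist (e (z.1 • e.symm z.2)) z.2) (1, x) := h3.dist continuousAt_snd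
    have h5 : dist (e ((1 : G) • e.symm x)) x < c * (R / 2) := by
      rw [one_smul, e.right_inv hxt, dist_self]; positivity
    exact (h2.eventually (e.open_source.mem_nhds hx0)).and
      (h4.eventually (Iio_mem_nhds h5))
  refine ⟨_, htube, fun p _ φ hφ hV x m => ?_⟩
  letI : AddAction ℤ_[p] M :=
    { vadd := fun u m => φ (Multiplicative.ofAdd u) • m
      zero_vadd := fun m => by
        show φ (Multiplicative.ofAdd 0) • m = m
        rw [ofAdd_zero, map_one, one_smul]
      add_vadd := fun u v m => by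
        show φ (Multiplicative.ofAdd (u + v)) • m =
          φ (Multiplicative.ofAdd u) • φ (Multiplicative.ofAdd v) • m
        rw [ofAdd_add, map_mul, mul_smul] }
  haveI : ContinuousVAdd ℤ_[p] M := ⟨by
    show Continuous fun q : ℤ_[p] × M => φ (Multiplicative.ofAdd q.1) • q.2
    exact (hφ.comp (continuous_ofAdd.comp continuous_fst)).smul continuous_snd⟩
  have h1 : x₀ ∈ interior (fixG p M 0) :=
    fixed_of_small (hln p) hc e hx₀ hR0 hRs fun u y hy => hV (Multiplicative.ofAdd u) y hy
  have h2 : GRL.LocalNewman p n := ⟨c, hc, hln p⟩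
  exact fixed_of_interior h2 h1 x.toAdd m

end Vale.Agent.P228.H615
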